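import Vale.Agent.P352.H990.Defs

namespace Vale.Agent.P352.H990

/-- Functionals on words. -/
abbrev Fu (X : Type*) := List X → ℂ

variable {X : Type*}

/-- shift -/
def sh (f : X) (φ : Fu X) : Fu X := fun w => φ (f :: w)

lemma sh_add (f : X) (φ ψ : Fu X) : sh f (φ + ψ) = sh f φ + sh f ψ := rfl
lemma sh_sub (f : X) (φ ψ : Fu X) : sh f (φ - ψ) = sh f φ - sh f ψ := rfl

/-- convolution, evaluated at a word -/
def conv : List X → Fu X → Fu X → ℂ
  | [], φ, ψ => φ [] * ψ []
  | f :: w, φ, ψ => conv w (sh f φ) ψ + conv w φ (sh f ψ)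

/-- convolution -/
def cv (φ ψ : Fu X) : Fu X := fun w => conv w φ ψ

lemma sh_cv (f : X) (φ ψ : Fu X) : sh f (cv φ ψ) = cv (sh f φ) ψ + cv φ (sh f ψ) := rfl

lemma conv_add_left (w : List X) (φ φ' ψ : Fu X) :
    conv w (φ + φ') ψ = conv w φ ψ + conv w φ' ψ := by
  induction w generalizing φ φ' ψ with
  | nil => simp only [conv, Pi.add_apply]; ring
  | cons f w ih => simp only [conv, sh_add, ih]; ring

lemma conv_sub_left (w : List X) (φ φ' ψ : Fu X) :
    conv w (φ - φ') ψ = conv w φ ψ - conv w φ' ψ := by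
  induction w generalizing φ φ' ψ with
  | nil => simp only [conv, Pi.sub_apply]; ring
  | cons f w ih => simp only [conv, sh_sub, ih]; ring

lemma conv_comm (w : List X) (φ ψ : Fu X) : conv w φ ψ = conv w ψ φ := by
  induction w generalizing φ ψ with
  | nil => simp only [conv]; ring
  | cons f w ih =>
    simp only [conv]
    rw [ih (sh f φ) ψ, ih φ (sh f ψ)]
    ring

lemma cv_comm (φ ψ : Fu X) : cv φ ψ = cv ψ φ := funext fun w => conv_comm w φ ψ

lemma cv_add_left (φ φ' ψ : Fu X) : cv (φ + φ') ψ = cv φ ψ + cv φ' ψ :=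
  funext fun w => conv_add_left w φ φ' ψ

lemma cv_sub_left (φ φ' ψ : Fu X) : cv (φ - φ') ψ = cv φ ψ - cv φ' ψ :=
  funext fun w => conv_sub_left w φ φ' ψ

lemma cv_add_right (φ ψ ψ' : Fu X) : cv φ (ψ + ψ') = cv φ ψ + cv φ ψ' := by
  rw [cv_comm, cv_add_left, cv_comm ψ, cv_comm ψ']

lemma cv_sub_right (φ ψ ψ' : Fu X) : cv φ (ψ - ψ') = cv φ ψ - cv φ ψ' := by
  rw [cv_comm, cv_sub_left, cv_comm ψ, cv_comm ψ']

lemma conv_assoc (w : List X) (φ ψ χ : Fu X) : conv w (cv φ ψ) χ = conv w φ (cv ψ χ) := by
  induction w generalizing φ ψ χ with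
  | nil => simp only [conv, cv]; ring
  | cons f w ih =>
    simp only [conv, sh_cv]
    have h : ∀ a b : Fu X, conv w φ (a + b) = conv w φ a + conv w φ b := fun a b =>
      congrFun (cv_add_right φ a b) w
    rw [conv_add_left, h, ih, ih, ih]
    ring

lemma cv_assoc (φ ψ χ : Fu X) : cv (cv φ ψ) χ = cv φ (cv ψ χ) :=
  funext fun w => conv_assoc w φ ψ χ

/-- repeated commutator of shifts -/
def ne : List X → Fu X → Fu X
  | [], φ => φ
  | [f], φ => sh f φ
  | f :: g :: l, φ => ne (g :: l) (sh f φ) - sh f (ne (g :: l) φ)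

lemma ne_sub (l : List X) (φ ψ : Fu X) : ne l (φ - ψ) = ne l φ - ne l ψ := by
  induction l generalizing φ ψ with
  | nil => rfl
  | cons f l ih =>
    cases l with
    | nil => rfl
    | cons g l => simp only [ne, sh_sub, ih]; abel

lemma ne_add (l : List X) (φ ψ : Fu X) : ne l (φ + ψ) = ne l φ + ne l ψ := by
  induction l generalizing φ ψ with
  | nil => rfl
  | cons f l ih =>
    cases l with
    | nil => rfl
    | cons g l => simp only [ne, sh_add, ih]; abel

/-- repeated commutators of shifts are derivations -/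
lemma ne_cv (l : List X) (hl : l ≠ []) (φ ψ : Fu X) :
    ne l (cv φ ψ) = cv (ne l φ) ψ + cv φ (ne l ψ) := by
  induction l generalizing φ ψ with
  | nil => exact absurd rfl hl
  | cons f l ih =>
    cases l with
    | nil => rfl
    | cons g l =>
      have ih' := ih (by simp)
      simp only [ne, sh_cv, ne_add, ih', sh_add, cv_sub_left, cv_sub_right]
      abel

/-- the exponential formula for repeated commutators -/
lemma ne_exp {ω τ : Fu X} (h : ∀ f, sh f ω = cv (sh f τ) ω) (l : List X) (hl : l ≠ []) :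
    ne l ω = cv (ne l τ) ω := by
  induction l with
  | nil => exact absurd rfl hl
  | cons f l ih =>
    cases l with
    | nil => exact h f
    | cons g l =>
      have ih' := ih (by simp)
      simp only [ne, h f, ne_cv (g :: l) (by simp), ih', sh_cv, cv_sub_left]
      rw [← cv_assoc, ← cv_assoc, cv_comm (sh f τ)]
      abel

lemma ne_pair {ω τ : Fu X} (h : ∀ f, sh f ω = cv (sh f τ) ω) (l l' : List X) (hl : l ≠ [])
    (hl' : l' ≠ []) (h1 : ω [] = 1) :
    ne l' (ne l ω) [] = ne l' (ne l τ) [] + ne l ω [] * ne l' ω [] := by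
  have e1 : ne l ω [] = ne l τ [] := by
    rw [ne_exp h l hl]
    change ne l τ [] * ω [] = _
    rw [h1, mul_one]
  rw [e1, ne_exp h l hl, ne_cv l' hl']
  change ne l' (ne l τ) [] * ω [] + ne l τ [] * ne l' ω [] = _
  rw [h1, mul_one]

lemma ne_vanish {n k : ℕ} (l : List X) {τ : Fu X} (h : ∀ w, k + w.length = n → τ w = 0)
    (w : List X) (hw : k + l.length + w.length = n) : ne l τ w = 0 := by
  induction l generalizing k τ w with
  | nil => exact h w (by simpa using hw)
  | cons f l ih =>
    cases l with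
    | nil => exact h _ (by simp only [List.length_cons, List.length_nil] at hw ⊢; omega)
    | cons g l =>
      simp only [ne, Pi.sub_apply]
      rw [ih (k := k + 1) (τ := sh f τ) (fun w hw => h _ (by
          simp only [List.length_cons] at hw ⊢; omega)) w (by
          simp only [List.length_cons] at hw ⊢; omega)]
      have := ih (k := k) h (f :: w) (by simp only [List.length_cons] at hw ⊢; omega)
      change 0 - ne (g :: l) τ (f :: w) = 0
      rw [this, sub_zero]

open GF (Fn splits)

lemma splits_conv (g : X → Fn) (w : List X) (φ ψ : List Fn → ℂ) :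
    ((splits (w.map g)).map fun p => φ p.1 * ψ p.2).sum =
      conv w (fun u => φ (u.map g)) (fun u => ψ (u.map g)) := by
  induction w generalizing φ ψ with
  | nil => simp [splits, conv]
  | cons f w ih =>
    simp only [List.map_cons, splits, List.map_append, List.map_map, List.sum_append, conv]
    have h1 := ih (fun u => φ (g f :: u)) ψ
    have h2 := ih φ (fun u => ψ (g f :: u))
    simp only [Function.comp_def]
    rw [h1, h2]
    rfl

end Vale.Agent.P352.H990
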