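import Vale.Agent.P352.GFDefs

namespace Vale.Agent.P352.GF

noncomputable section

/-- All ways to split a list of test functions into two complementary sublists. -/
def splits : List Fn → List (List Fn × List Fn)
  | [] => [([], [])]
  | f :: l => (splits l).map (fun p => (f :: p.1, p.2)) ++ (splits l).map fun p => (p.1, f :: p.2)

/-- The repeated commutator `[A f₁, [A f₂, …, [A fₘ₋₁, A fₘ] … ]]`. -/
def com {D : Type*} [AddCommGroup D] (A : Fld D) : List Fn → D → D
  | [] => fun v => v
  | [f] => A f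
  | f :: g :: l => fun v => A f (com A (g :: l) v) - com A (g :: l) (A f v)

namespace Theory

variable {D : Type*} [NormedAddCommGroup D] [InnerProductSpace ℂ D] (Q : Theory D)

/-- Uniqueness of the vacuum: translation invariant vectors are multiples of the vacuum. -/
def UniqueVac : Prop := ∀ v : D, (∀ a, Q.U 1 one a v = v) → ∃ c : ℂ, v = c • Q.vac

/-- The vacuum expectation value of `A f₁ ⋯ A fₙ`. -/
def vev (A : Fld D) (l : List Fn) : ℂ := inner ℂ Q.vac (l.foldr A Q.vac)

/-- `t` is the family of truncated functions of `A`: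
`⟨A f₀ A f₁ ⋯ A fₙ⟩ = ∑ t (f₀, f_S) ⟨A f_{Sᶜ}⟩`, sum over the subsets `S` of `{1, …, n}`. -/
def IsTrunc (A : Fld D) (t : List Fn → ℂ) : Prop := ∀ f l, (∀ g ∈ f :: l, IsTest g) →
  Q.vev A (f :: l) = ((splits l).map fun p => t (f :: p.1) * Q.vev A p.2).sum

/-- The truncated `n` point function of `A` vanishes. -/
def TruncZero (A : Fld D) (n : ℕ) : Prop := ∃ t, Q.IsTrunc A t ∧
  ∀ l, l.length = n → (∀ g ∈ l, IsTest g) → t l = 0

/-- All `m`-fold repeated commutators of `A` (with compactly supported test functions) map the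
vacuum to a multiple of itself. -/
def Nilpotent (A : Fld D) (m : ℕ) : Prop := ∀ l : List Fn, l.length = m →
  (∀ f ∈ l, IsTest f ∧ HasCompactSupport f) → ∃ c : ℂ, com A l Q.vac = c • Q.vac

/-- The conditions of the theorem. -/
def Tame (A : Fld D) : Prop := Q.Free4 A ∨ Q.Nilpotent A 2 ∨
  Q.UniqueVac ∧ ∃ m, 1 ≤ m ∧ (Q.TruncZero A (2 * m) ∨ Q.Nilpotent A m)

end Theory

end

end Vale.Agent.P352.GF
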