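import Vale.Agent.P352.H990.Ops

set_option maxSynthPendingDepth 3

open MeasureTheory SchwartzMap Complex Filter Topology
open scoped SchwartzMap ComplexConjugate ENNReal LineDeriv

namespace Vale.Agent.P352.H990

open GF (Ix V Fn Sch ev pd bar sim one bas o)

variable {D : Type*} [NormedAddCommGroup D] [InnerProductSpace ℂ D] {Q : GF.Theory D}
  {T : Ix → Ix → GF.Fld D} {A : GF.Fld D} {d : ℝ}

/-- translation covariance -/
lemma U_op (hA : PField Q T A d) (a : Mink) (f : 𝓢(Mink, ℂ)) (v : D) :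
    Q.U 1 one a.ofLp (A (fl f) v) = A (fl (tauS a f)) (Q.U 1 one a.ofLp v) := by
  rw [hA.cov 1 one_pos _ isLor_one a.ofLp (tauS a f), simS_tauS]
  simp only [Real.one_rpow, ofReal_one, one_smul]

lemma U_sub (a : Mink) (v w : D) :
    Q.U 1 one a.ofLp (v - w) = Q.U 1 one a.ofLp v - Q.U 1 one a.ofLp w := by
  have h := U_add (Q := Q) one_pos isLor_one a.ofLp v ((-1 : ℂ) • w)
  rw [U_smul one_pos isLor_one, neg_one_smul, neg_one_smul, ← sub_eq_add_neg,
    ← sub_eq_add_neg] at h
  exact h

lemma U_nc (hA : PField Q T A d) (a : Mink) (l : List 𝓢(Mink, ℂ)) (v : D) :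
    Q.U 1 one a.ofLp (nc hA l v) = nc hA (l.map (tauS a)) (Q.U 1 one a.ofLp v) := by
  induction l generalizing v with
  | nil => rfl
  | cons f l ih =>
    cases l with
    | nil => exact U_op hA a f v
    | cons g l =>
      have e : (f :: g :: l).map (tauS a) = tauS a f :: (g :: l).map (tauS a) := rfl
      have hne : (g :: l).map (tauS a) ≠ [] := by simp
      rw [nc_cons hA f (List.cons_ne_nil g l), U_sub, U_op hA, ih, ih, U_op hA, e,
        nc_cons hA _ hne]

lemma cpt_tau {l : List 𝓢(Mink, ℂ)} (h : Cpt l) (a : Mink) : Cpt (l.map (tauS a)) := by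
  intro f hf
  obtain ⟨g, hg, rfl⟩ := List.mem_map.1 hf
  have h1 : (tauS a g : Mink → ℂ) = g ∘ (Homeomorph.subRight a) := by
    ext x; simp only [tauS_apply, Homeomorph.coe_subRight, Function.comp_apply]
  rw [h1]
  exact (h g hg).comp_homeomorph _

lemma cl_tau (l : List 𝓢(Mink, ℂ)) (a : Mink) : cl (l.map (tauS a)) = (cl l).map (tauS a) := by
  simp only [cl, List.map_map]
  refine List.map_congr_left fun f _ => ?_
  exact conjS_tauS a f

/-- an operator whose commutators with the field are scalars commutes with repeated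
commutators up to scalars -/
lemma comm_nc (hA : PField Q T A d) (E : D →ₗ[ℂ] D)
    (hE : ∀ f : 𝓢(Mink, ℂ), HasCompactSupport f → ∃ c : ℂ, ∀ v, A (fl f) (E v) - E (A (fl f) v) = c • v)
    (l : List 𝓢(Mink, ℂ)) (hl : l ≠ []) (hc : Cpt l) :
    ∃ c : ℂ, (∀ v, E (nc hA l v) - nc hA l (E v) = c • v) ∧ (2 ≤ l.length → c = 0) := by
  induction l with
  | nil => exact absurd rfl hl
  | cons f l ih =>
    obtain ⟨a, ha⟩ := hE f (hc f List.mem_cons_self)
    cases l with
    | nil =>
      refine ⟨-a, fun v => ?_, fun h => by simp at h⟩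
      change E (A (fl f) v) - A (fl f) (E v) = _
      rw [neg_smul, ← ha]
      abel
    | cons g l =>
      obtain ⟨b, hb, -⟩ := ih (by simp) hc.tail
      refine ⟨0, fun v => ?_, fun _ => rfl⟩
      have ha' : ∀ v, E (A (fl f) v) = A (fl f) (E v) - a • v := fun v => by
        rw [← ha]; abel
      have hb' : ∀ v, E (nc hA (g :: l) v) = nc hA (g :: l) (E v) + b • v := fun v => by
        rw [← hb]; abel
      have hop : ∀ (c : ℂ) v, A (fl f) (c • v) = c • A (fl f) v := hA.smulv f
      rw [nc_cons hA f (by simp), nc_cons hA f (by simp), map_sub, ha', hb', hb', ha', hA.addv,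
        hop, map_sub, map_smul, zero_smul]
      abel

/-- descent -/
lemma sc_descent (hA : PField Q T A d) (hu : Q.UniqueVac) {m : ℕ} (hm : 2 ≤ m)
    (h : Sc hA (m + 1)) : Sc hA m := by
  refine sc_of_vac hA (by omega) fun l hl hc => ?_
  have hl' : l ≠ [] := ne_nil_of_length (by omega : 1 ≤ m) hl
  have hcl : cl l ≠ [] := by simpa using hl'
  set v := nc hA l Q.vac with hv
  set v' := nc hA (cl l) Q.vac with hv'
  have hE : ∀ f : 𝓢(Mink, ℂ), HasCompactSupport f → ∃ c : ℂ, ∀ v,
      A (fl f) (nc hA (cl l) v) - nc hA (cl l) (A (fl f) v) = c • v := by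
    intro f hf
    obtain ⟨c, hc'⟩ := h (f :: cl l) (by simpa using hl) (by
      intro g hg
      rcases List.mem_cons.1 hg with rfl | hg
      · exact hf
      · exact hc.cl g hg)
    exact ⟨c, fun v => by rw [← hc', nc_cons hA f hcl]⟩
  have hcomm : ∀ a : Mink, nc hA (cl l) (nc hA (l.map (tauS a)) Q.vac) =
      nc hA (l.map (tauS a)) (nc hA (cl l) Q.vac) := by
    intro a
    obtain ⟨c, h1, h2⟩ := comm_nc hA (nc hA (cl l)) hE (l.map (tauS a)) (by simpa using hl')
      (cpt_tau hc a)
    have h3 := h1 Q.vac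
    rw [h2 (by simpa using (by omega : 2 ≤ l.length)), zero_smul] at h3
    exact sub_eq_zero.1 h3
  have hvac : ∀ a : Mink, Q.U 1 one a.ofLp Q.vac = Q.vac := fun a =>
    Q.U_vac 1 one _ one_pos isLor_one
  have hF : ∀ a : Mink, inner ℂ v (Q.U 1 one a.ofLp v) =
      conj (inner ℂ v' (Q.U 1 one a.ofLp v')) := by
    intro a
    have e1 : Q.U 1 one a.ofLp v = nc hA (l.map (tauS a)) Q.vac := by rw [hv, U_nc, hvac]
    have e2 : Q.U 1 one a.ofLp v' = nc hA ((cl l).map (tauS a)) Q.vac := by rw [hv', U_nc, hvac]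
    have hlt : l.map (tauS a) ≠ [] := by simpa using hl'
    rw [inner_conj_symm, e1, e2, hv, inner_nc hA l hl', hcomm, ← cl_tau]
    have h5 := inner_nc hA (cl (l.map (tauS a))) (by simpa using hl') Q.vac v'
    rw [cl_cl] at h5
    rw [h5]
    have hsg : sg (cl (l.map (tauS a))) = sg l := by simp only [sg, cl, List.length_map]
    rw [hsg]
  have hconst := two_sided hF
  have h0 : Q.U 1 one (0 : Mink).ofLp v = v := by
    have : l.map (tauS 0) = l := by
      conv_rhs => rw [← List.map_id l]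
      refine List.map_congr_left fun f _ => ?_
      rw [tauS_zero']
      rfl
    rw [hv, U_nc, hvac, this]
  have hinv : ∀ a, Q.U 1 one a v = v := by
    intro a
    set a' : Mink := WithLp.toLp 2 a with ha'
    have e : inner ℂ v (Q.U 1 one a v) = inner ℂ v v := by
      have := hconst a'
      rw [h0] at this
      exact this
    have e' : inner ℂ (Q.U 1 one a v) v = inner ℂ v v := by
      rw [← inner_conj_symm, e, inner_conj_symm]
    have e'' := Q.U_inner 1 one a v v one_pos isLor_one
    rw [← sub_eq_zero]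
    apply inner_self_eq_zero (𝕜 := ℂ).1
    rw [inner_sub_left, inner_sub_right, inner_sub_right, e'', e, e']
    ring
  exact hu v hinv

lemma sc_two (hA : PField Q T A d) (hu : Q.UniqueVac) (m : ℕ) (h : Sc hA (m + 2)) : Sc hA 2 := by
  induction m with
  | zero => exact h
  | succ m ih => exact ih (sc_descent hA hu (by omega) h)

/-- scalars stay scalars -/
lemma sc_succ (hA : PField Q T A d) {m : ℕ} (hm : 1 ≤ m) (h : Sc hA m) : Sc hA (m + 1) := by
  intro l hl hc
  cases l with
  | nil => simp at hl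
  | cons f l =>
    have hl1 : l.length = m := by simpa using hl
    obtain ⟨c, h1⟩ := h l hl1 hc.tail
    refine ⟨0, fun v => ?_⟩
    rw [nc_cons hA f (ne_nil_of_length hm hl1), h1, h1, hA.smulv, sub_self, zero_smul]

lemma sc_of_unique (hA : PField Q T A d) (hu : Q.UniqueVac) {m : ℕ} (hm : 1 ≤ m)
    (h : Sc hA m) : Sc hA 2 := by
  obtain ⟨k, rfl⟩ : ∃ k, m = k + 1 := ⟨m - 1, by omega⟩
  exact sc_two hA hu k (sc_succ hA (by omega) h)

end Vale.Agent.P352.H990
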