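import Vale.Agent.P352.H990.Descent

set_option maxSynthPendingDepth 3

open MeasureTheory SchwartzMap Complex Filter Topology
open scoped SchwartzMap ComplexConjugate ENNReal LineDeriv

namespace Vale.Agent.P352.H990

open GF (Ix V Fn Sch ev pd bar sim one bas o)

variable {D : Type*} [NormedAddCommGroup D] [InnerProductSpace ℂ D] {Q : GF.Theory D}
  {T : Ix → Ix → GF.Fld D} {A : GF.Fld D} {d : ℝ}

/-- density of compactly supported functions -/
lemma dens {P : 𝓢(Mink, ℂ) → ℂ} (hP : Continuous P)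
    (h : ∀ f : 𝓢(Mink, ℂ), HasCompactSupport f → P f = 0) (f : 𝓢(Mink, ℂ)) : P f = 0 := by
  obtain ⟨g, hg, hlim⟩ := exists_compact_seq f
  have h1 := (hP.tendsto f).comp hlim
  have h2 : P ∘ g = fun _ => 0 := by
    funext n
    exact h _ (hg n)
  rw [h2] at h1
  exact (tendsto_nhds_unique h1 tendsto_const_nhds)

/-- matrix elements as continuous functionals -/
noncomputable def uf (hA : PField Q T A d) (χ : D) : 𝓢(Mink, ℂ) →L[ℂ] ℂ :=
  (innerSL ℂ (χ : UniformSpace.Completion D)).comp hA.kap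

lemma uf_apply (hA : PField Q T A d) (χ : D) (k : 𝓢(Mink, ℂ)) :
    uf hA χ k = inner ℂ χ (A (fl k) Q.vac) := by
  change inner ℂ (χ : UniformSpace.Completion D) (hA.kap k) = _
  rw [hA.kap_apply, UniformSpace.Completion.inner_coe]

lemma mft_zero' (k : 𝓢(Mink, ℂ)) : mft k 0 = ∫ x, k x := by
  unfold mft
  congr 1
  ext x
  simp [mdot]

/-- a translation invariant functional dominated by the field on the vacuum vanishes -/
lemma inv_zero (hA : PField Q T A d) (hd : 0 < d) (χ : D)
    (h : ∀ k : 𝓢(Mink, ℂ), HasCompactSupport k → ∀ b : Mink,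
      inner ℂ χ (A (fl (tauS b k)) Q.vac) = inner ℂ χ (A (fl k) Q.vac)) (k : 𝓢(Mink, ℂ)) :
    inner ℂ χ (A (fl k) Q.vac) = 0 := by
  have h' : ∀ k : 𝓢(Mink, ℂ), HasCompactSupport k → ∀ b : Mink,
      uf hA χ (tauS b k) = uf hA χ k := by
    intro k hk b
    rw [uf_apply, uf_apply, h k hk b]
  have step1 : ∀ k g : 𝓢(Mink, ℂ), HasCompactSupport k → HasCompactSupport g →
      mft k 0 * uf hA χ g = mft g 0 * uf hA χ k := by
    have aux : ∀ k g c : 𝓢(Mink, ℂ), HasCompactSupport g →
        (∀ x, c x = ∫ a, k a * g (x - a)) → uf hA χ c = mft k 0 * uf hA χ g := by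
      intro k g c hg hc
      rw [conv_identity (uf hA χ) g k c hc, mft_zero', ← integral_mul_const]
      congr 1
      ext a
      rw [smul_eq_mul]
      congr 1
      exact h' g hg a
    intro k g hk hg
    obtain ⟨c, hc⟩ := exists_conv g k
    rw [← aux k g c hg hc, ← aux g k c hk (P352.conv_comm hc)]
  obtain ⟨k0, hk0, hk0'⟩ := exists_test_ne_zero isOpen_univ (Set.univ_nonempty (α := Mink)) 0
  have hz : mft k0 0 ≠ 0 := hk0' 0 (by simp)
  refine dens (P := fun k => inner ℂ χ (A (fl k) Q.vac)) ?_ (fun k hk => ?_) k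
  · have : (fun k => inner ℂ χ (A (fl k) Q.vac)) = uf hA χ := by
      funext k
      rw [uf_apply]
    rw [this]
    exact (uf hA χ).continuous
  · have hs : ∀ s : ℝ, 0 < s → ‖mft k0 0‖ * ‖uf hA χ k‖ ≤
        ‖mft k 0‖ * (‖χ‖ * ‖A (fl k0) Q.vac‖) * s ^ d := by
      intro s hs
      have hcs : HasCompactSupport (scaleS s hs.ne' k0) := by
        have e : (scaleS s hs.ne' k0 : Mink → ℂ) = k0 ∘ (Homeomorph.smulOfNeZero s hs.ne') := by
          ext x; simp
        rw [e]
        exact hk0.1.comp_homeomorph _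
      have h1 := step1 k (scaleS s hs.ne' k0) hk hcs
      rw [mft_scaleS s hs, smul_zero] at h1
      have h2 : ‖A (fl k0) Q.vac‖ = s ^ (4 - d) * ‖A (fl (scaleS s hs.ne' k0)) Q.vac‖ := by
        have h3 := hA.cov_vac s hs isLor_one 0 k0
        rw [simS_scale] at h3
        have h4 : ∀ v, ‖Q.U s one 0 v‖ = ‖v‖ := by
          intro v
          have h5 := Q.U_inner s one 0 v v hs isLor_one
          rw [inner_self_eq_norm_sq_to_K, inner_self_eq_norm_sq_to_K] at h5
          have h6 : ‖Q.U s one 0 v‖ ^ 2 = ‖v‖ ^ 2 := by exact_mod_cast h5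
          exact (pow_left_inj₀ (norm_nonneg _) (norm_nonneg _) (by norm_num)).1 h6
        rw [h3, norm_smul, h4, norm_real, Real.norm_eq_abs, abs_of_pos (Real.rpow_pos_of_pos hs _)]
      have h3 : ‖uf hA χ (scaleS s hs.ne' k0)‖ ≤ ‖χ‖ * ‖A (fl (scaleS s hs.ne' k0)) Q.vac‖ := by
        rw [uf_apply]
        exact norm_inner_le_norm _ _
      have h4 := congrArg norm h1
      rw [norm_mul, norm_mul, norm_mul, norm_real, Real.norm_eq_abs,
        abs_of_pos (by positivity : (0 : ℝ) < (s ^ 4)⁻¹)] at h4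
      have h5 : (s ^ 4)⁻¹ * ‖mft k0 0‖ * ‖uf hA χ k‖ ≤
          ‖mft k 0‖ * (‖χ‖ * ‖A (fl (scaleS s hs.ne' k0)) Q.vac‖) := by
        rw [← h4]
        gcongr
      have h6 : s ^ (4 - d) * s ^ d = s ^ 4 := by
        rw [← Real.rpow_add hs]
        norm_num
      have hsd : 0 < s ^ d := Real.rpow_pos_of_pos hs _
      have hs4 : 0 < s ^ 4 := by positivity
      calc ‖mft k0 0‖ * ‖uf hA χ k‖ = s ^ 4 * ((s ^ 4)⁻¹ * ‖mft k0 0‖ * ‖uf hA χ k‖) := by
            field_simp
        _ ≤ s ^ 4 * (‖mft k 0‖ * (‖χ‖ * ‖A (fl (scaleS s hs.ne' k0)) Q.vac‖)) := by gcongr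
        _ = ‖mft k 0‖ * (‖χ‖ * (s ^ (4 - d) * ‖A (fl (scaleS s hs.ne' k0)) Q.vac‖)) * s ^ d := by
            rw [← h6]; ring
        _ = _ := by rw [← h2]
    have hlim : Tendsto (fun s : ℝ => ‖mft k 0‖ * (‖χ‖ * ‖A (fl k0) Q.vac‖) * s ^ d)
        (𝓝[>] 0) (𝓝 0) := by
      have h1 : Tendsto (fun s : ℝ => s ^ d) (𝓝[>] 0) (𝓝 0) := by
        have := (Real.continuousAt_rpow_const 0 d (Or.inr hd.le)).tendsto
        rw [Real.zero_rpow hd.ne'] at this
        exact this.mono_left nhdsWithin_le_nhds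
      simpa using h1.const_mul (‖mft k 0‖ * (‖χ‖ * ‖A (fl k0) Q.vac‖))
    have h0 : ‖mft k0 0‖ * ‖uf hA χ k‖ ≤ 0 := by
      refine ge_of_tendsto hlim ?_
      filter_upwards [self_mem_nhdsWithin] with s hs'
      exact hs s hs'
    have h1 : ‖uf hA χ k‖ = 0 := by
      have := norm_pos_iff.2 hz
      nlinarith [norm_nonneg (uf hA χ k)]
    rw [← uf_apply hA, norm_eq_zero.1 h1]

/-- two point function -/
noncomputable def w2 (Q : GF.Theory D) (A : GF.Fld D) (f g : 𝓢(Mink, ℂ)) : ℂ :=
  inner ℂ Q.vac (A (fl f) (A (fl g) Q.vac))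

/-- four point function -/
noncomputable def w4 (Q : GF.Theory D) (A : GF.Fld D) (f g h k : 𝓢(Mink, ℂ)) : ℂ :=
  inner ℂ Q.vac (A (fl f) (A (fl g) (A (fl h) (A (fl k) Q.vac))))

lemma herm' (hA : PField Q T A d) (f : 𝓢(Mink, ℂ)) (v w : D) :
    inner ℂ (A (fl (conjS f)) v) w = inner ℂ v (A (fl f) w) := by
  rw [hA.herm, conjS_conjS]

lemma four_compact (hA : PField Q T A d) (hd : 0 < d) (hS : Sc hA 2) (f g h k : 𝓢(Mink, ℂ))
    (hf : HasCompactSupport f) (hg : HasCompactSupport g) (hh : HasCompactSupport h) :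
    w4 Q A f g h k - (w2 Q A f g * w2 Q A h k + w2 Q A f h * w2 Q A g k +
      w2 Q A f k * w2 Q A g h) = 0 := by
  have hcom : ∀ f g : 𝓢(Mink, ℂ), HasCompactSupport f → HasCompactSupport g →
      ∀ v, A (fl f) (A (fl g) v) = A (fl g) (A (fl f) v) + (w2 Q A f g - w2 Q A g f) • v := by
    intro f g hf hg v
    obtain ⟨c, hc⟩ := hS [f, g] rfl (by
      intro e he
      simp only [List.mem_cons, List.not_mem_nil, or_false] at he
      rcases he with rfl | rfl
      · exact hf
      · exact hg)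
    have hc' : ∀ v, A (fl f) (A (fl g) v) - A (fl g) (A (fl f) v) = c • v := hc
    have hvv : inner ℂ Q.vac Q.vac = (1 : ℂ) := by
      rw [inner_self_eq_norm_sq_to_K, Q.norm_vac]; simp
    have h1 : w2 Q A f g - w2 Q A g f = c := by
      have := congrArg (fun v => inner ℂ Q.vac v) (hc' Q.vac)
      simp only [inner_sub_right, inner_smul_right, hvv, mul_one] at this
      exact this
    rw [h1, ← hc']
    abel
  set χ : D := A (fl (conjS h)) (A (fl (conjS g)) (A (fl (conjS f)) Q.vac)) -
    conj (w2 Q A f g) • A (fl (conjS h)) Q.vac - conj (w2 Q A f h) • A (fl (conjS g)) Q.vac -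
    conj (w2 Q A g h) • A (fl (conjS f)) Q.vac with hχ
  set χ' : D := A (fl f) (A (fl g) (A (fl h) Q.vac)) - w2 Q A g h • A (fl f) Q.vac -
    w2 Q A f h • A (fl g) Q.vac - w2 Q A f g • A (fl h) Q.vac with hχ'
  have e1 : ∀ k, inner ℂ χ (A (fl k) Q.vac) = w4 Q A f g h k - (w2 Q A f g * w2 Q A h k +
      w2 Q A f h * w2 Q A g k + w2 Q A f k * w2 Q A g h) := by
    intro k
    rw [hχ, inner_sub_left, inner_sub_left, inner_sub_left, inner_smul_left, inner_smul_left,
      inner_smul_left, conj_conj, conj_conj, conj_conj, herm' hA, herm' hA, herm' hA, herm' hA,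
      herm' hA, herm' hA]
    simp only [w4, w2]
    ring
  have e2 : ∀ k : 𝓢(Mink, ℂ), HasCompactSupport k → inner ℂ χ (A (fl k) Q.vac) =
      inner ℂ (A (fl (conjS k)) Q.vac) χ' := by
    intro k hk
    rw [e1, hχ', inner_sub_right, inner_sub_right, inner_sub_right, inner_smul_right,
      inner_smul_right, inner_smul_right, herm' hA, herm' hA, herm' hA, herm' hA]
    simp only [w4]
    rw [hcom h k hh hk, hA.addv, hA.smulv, hcom g k hg hk, hA.addv, hA.addv, hA.smulv, hA.smulv,
      hcom f k hf hk]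
    simp only [inner_add_right, inner_smul_right]
    simp only [w2]
    ring
  rw [← e1]
  refine inv_zero hA hd χ (fun k hk b => ?_) k
  have hvac : ∀ a : Mink, Q.U 1 one a.ofLp Q.vac = Q.vac := fun a =>
    Q.U_vac 1 one _ one_pos isLor_one
  have hU : ∀ (a : Mink) (k : 𝓢(Mink, ℂ)), Q.U 1 one a.ofLp (A (fl k) Q.vac) =
      A (fl (tauS a k)) Q.vac := by
    intro a k
    rw [U_op hA, hvac]
  have hct : ∀ a : Mink, HasCompactSupport (tauS a k) := by
    intro a
    have := cpt_tau (l := [k]) (by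
      intro e he
      rw [List.mem_singleton.1 he]
      exact hk) a
    exact this _ (by simp)
  have h1 := two_sided (Q := Q) (x := χ) (y := A (fl k) Q.vac) (x' := χ')
    (y' := A (fl (conjS k)) Q.vac) (fun a => by
      rw [hU, hU, e2 _ (hct a), inner_conj_symm, conjS_tauS]) b
  rw [hU, hU, tauS_zero'] at h1
  exact h1

lemma cont_w (hA : PField Q T A d) (x y : D) :
    Continuous fun f : 𝓢(Mink, ℂ) => (inner ℂ x (A (fl f) y) : ℂ) :=
  Continuous.inner continuous_const (hA.cont y)

/-- a field whose commutators are scalars has vanishing truncated four point function -/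
theorem free4_of_sc (hA : PField Q T A d) (hd : 0 < d) (hS : Sc hA 2) : Q.Free4 A := by
  have key : ∀ f g h k : 𝓢(Mink, ℂ), w4 Q A f g h k - (w2 Q A f g * w2 Q A h k +
      w2 Q A f h * w2 Q A g k + w2 Q A f k * w2 Q A g h) = 0 := by
    intro f g h k
    refine dens (P := fun h => w4 Q A f g h k - (w2 Q A f g * w2 Q A h k +
      w2 Q A f h * w2 Q A g k + w2 Q A f k * w2 Q A g h)) ?_ (fun h hh => ?_) h
    · have c1 : Continuous fun h => w4 Q A f g h k := by
        have := cont_w hA (A (fl (conjS g)) (A (fl (conjS f)) Q.vac)) (A (fl k) Q.vac)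
        simp only [herm' hA] at this
        exact this
      have c2 : Continuous fun h => w2 Q A h k := cont_w hA Q.vac (A (fl k) Q.vac)
      have c3 : ∀ f, Continuous fun h => w2 Q A f h := fun f => by
        have := cont_w hA (A (fl (conjS f)) Q.vac) Q.vac
        simp only [herm' hA] at this
        exact this
      exact c1.sub (((continuous_const.mul c2).add ((c3 f).mul continuous_const)).add
        (continuous_const.mul (c3 g)))
    refine dens (P := fun g => w4 Q A f g h k - (w2 Q A f g * w2 Q A h k +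
      w2 Q A f h * w2 Q A g k + w2 Q A f k * w2 Q A g h)) ?_ (fun g hg => ?_) g
    · have c1 : Continuous fun g => w4 Q A f g h k := by
        have := cont_w hA (A (fl (conjS f)) Q.vac) (A (fl h) (A (fl k) Q.vac))
        simp only [herm' hA] at this
        exact this
      have c2 : ∀ k, Continuous fun g => w2 Q A g k := fun k => cont_w hA Q.vac (A (fl k) Q.vac)
      have c3 : ∀ f, Continuous fun h => w2 Q A f h := fun f => by
        have := cont_w hA (A (fl (conjS f)) Q.vac) Q.vac
        simp only [herm' hA] at this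
        exact this
      exact c1.sub ((((c3 f).mul continuous_const).add (continuous_const.mul (c2 k))).add
        (continuous_const.mul (c2 h)))
    refine dens (P := fun f => w4 Q A f g h k - (w2 Q A f g * w2 Q A h k +
      w2 Q A f h * w2 Q A g k + w2 Q A f k * w2 Q A g h)) ?_ (fun f hf => ?_) f
    · have c1 : Continuous fun f => w4 Q A f g h k :=
        cont_w hA Q.vac (A (fl g) (A (fl h) (A (fl k) Q.vac)))
      have c2 : ∀ k, Continuous fun g => w2 Q A g k := fun k => cont_w hA Q.vac (A (fl k) Q.vac)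
      exact c1.sub ((((c2 g).mul continuous_const).add ((c2 h).mul continuous_const)).add
        ((c2 k).mul continuous_const))
    exact four_compact hA hd hS f g h k hf hg hh
  intro f g h k hf hg hh hk
  obtain ⟨f, rfl⟩ := exists_fl hf
  obtain ⟨g, rfl⟩ := exists_fl hg
  obtain ⟨h, rfl⟩ := exists_fl hh
  obtain ⟨k, rfl⟩ := exists_fl hk
  exact sub_eq_zero.1 (key f g h k)

/-- Main result of this file. -/
theorem free4_of_tame (hA : PField Q T A d) (hd : 0 < d) (h : Q.Tame A) : Q.Free4 A := by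
  rcases h with h | h | ⟨hu, m, hm, h | h⟩
  · exact h
  · exact free4_of_sc hA hd (sc_of_nilpotent hA (by norm_num) h)
  · exact free4_of_sc hA hd (sc_of_unique hA hu hm (sc_of_order hA h hm))
  · exact free4_of_sc hA hd (sc_of_unique hA hu hm (sc_of_nilpotent hA hm h))

end Vale.Agent.P352.H990
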