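import Vale.Agent.P352.Bdl.B2

set_option maxSynthPendingDepth 3

open MeasureTheory SchwartzMap Complex Filter Topology
open scoped SchwartzMap ComplexConjugate ENNReal LineDeriv

namespace Vale.Agent.P352.H990

lemma mem_cone_inter {p : Mink} (h : p ∈ fwdCone) (h' : -p ∈ fwdCone) : p = 0 := by
  have h0 : p 0 = 0 := by
    have := h.1
    have := h'.1
    simp only [PiLp.neg_apply] at this
    linarith [h.1]
  have h2 := h.2
  simp only [mdot, h0] at h2
  have h3 : p 1 ^ 2 + p 2 ^ 2 + p 3 ^ 2 ≤ 0 := by nlinarith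
  have e1 : p 1 = 0 := by nlinarith [sq_nonneg (p 1), sq_nonneg (p 2), sq_nonneg (p 3)]
  have e2 : p 2 = 0 := by nlinarith [sq_nonneg (p 1), sq_nonneg (p 2), sq_nonneg (p 3)]
  have e3 : p 3 = 0 := by nlinarith [sq_nonneg (p 1), sq_nonneg (p 2), sq_nonneg (p 3)]
  exact mink_ext (by simpa using h0) (by simpa using e1) (by simpa using e2) (by simpa using e3)

lemma chr_neg_left (a p : Mink) : chr a (-p) = conj (chr a p) := by
  have : chr a (-p) = chr (-a) p := by
    simp only [chr, mdot, PiLp.neg_apply]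
    congr 2
    push_cast
    ring
  rw [this, chr_neg]

lemma cint_diff {μ : Measure Mink} {ψ : Mink → ℂ} (hψ : Integrable ψ μ) (a b : Mink) :
    ∫ p, chr a p * ((chr b p - 1) * ψ p) ∂μ = cint μ ψ (a + b) - cint μ ψ a := by
  unfold cint
  rw [← integral_sub (integrable_chr_mul hψ (a + b)) (integrable_chr_mul hψ a)]
  congr 1
  ext p
  rw [chr_add]
  ring

lemma integrable_diff {μ : Measure Mink} {ψ : Mink → ℂ} (hψ : Integrable ψ μ) (b : Mink) :
    Integrable (fun p => (chr b p - 1) * ψ p) μ := by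
  have := (integrable_chr_mul hψ b).sub hψ
  refine this.congr (Eventually.of_forall fun p => ?_)
  simp only [Pi.sub_apply]
  ring

/-- A transform of a measure on the forward cone which is also the transform of a measure on the
backward cone is constant. -/
lemma cint_const {μ₁ μ₂ : Measure Mink} {ψ₁ ψ₂ : Mink → ℂ} (c₁ : ∀ᵐ p ∂μ₁, p ∈ fwdCone)
    (c₂ : ∀ᵐ p ∂μ₂, p ∈ fwdCone) (h₁ : Integrable ψ₁ μ₁) (h₂ : Integrable ψ₂ μ₂)
    (h : ∀ a, cint μ₁ ψ₁ a = conj (cint μ₂ ψ₂ a)) (b : Mink) : cint μ₁ ψ₁ b = cint μ₁ ψ₁ 0 := by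
  classical
  set e : Mink ≃ᵐ Mink := (Homeomorph.neg Mink).toMeasurableEquiv with he
  have he' : ∀ p, e p = -p := fun p => rfl
  set μ₃ : Measure Mink := μ₂.map e with hμ₃
  set M : Measure Mink := μ₁ + μ₃.restrict fwdConeᶜ with hM
  set φ : Mink → ℂ := fun p => if p ∈ fwdCone then (chr b p - 1) * ψ₁ p else
    -(((chr b p) - 1) * conj (ψ₂ (-p))) with hφ
  have mc : MeasurableSet fwdCone := measurableSet_fwdCone
  have k₂ : Integrable (fun p => (chr b p - 1) * ψ₂ p) μ₂ := integrable_diff h₂ b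
  -- the two pieces
  have e1 : φ =ᵐ[μ₁] fun p => (chr b p - 1) * ψ₁ p := by
    filter_upwards [c₁] with p hp
    simp only [hφ, if_pos hp]
  have e3 : φ =ᵐ[μ₃.restrict fwdConeᶜ] fun p => -(((chr b p) - 1) * conj (ψ₂ (-p))) := by
    filter_upwards [ae_restrict_mem mc.compl] with p hp
    simp only [hφ, if_neg hp]
  have i1 : Integrable φ μ₁ := (integrable_diff h₁ b).congr e1.symm
  have k₃ : Integrable (fun p => -(((chr b p) - 1) * conj (ψ₂ (-p)))) μ₃ := by
    rw [hμ₃, integrable_map_equiv]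
    have := (integrable_diff h₂ b).norm
    refine this.mono' ?_ (Eventually.of_forall fun p => ?_)
    · have h5 : AEStronglyMeasurable (fun p => conj ((chr b p - 1) * ψ₂ p)) μ₂ :=
        Continuous.comp_aestronglyMeasurable continuous_conj k₂.aestronglyMeasurable
      refine h5.neg.congr (Eventually.of_forall fun p => ?_)
      simp only [Function.comp_apply, he', neg_neg, chr_neg_left, map_mul, map_sub, map_one,
        Pi.neg_apply]
    · simp only [Function.comp_apply, he', neg_neg, chr_neg_left, norm_neg, norm_mul]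
      rw [show conj (chr b p) - 1 = conj (chr b p - 1) by simp, RCLike.norm_conj,
        RCLike.norm_conj]
  have i3 : Integrable φ (μ₃.restrict fwdConeᶜ) := (k₃.restrict).congr e3.symm
  have iM : Integrable φ M := i1.add_measure i3
  have key : φ =ᵐ[M] 0 := by
    refine ft_unique M φ iM fun a => ?_
    rw [hM, integral_add_measure (integrable_chr_mul i1 a) (integrable_chr_mul i3 a)]
    have f1 : ∫ p, chr a p * φ p ∂μ₁ = cint μ₁ ψ₁ (a + b) - cint μ₁ ψ₁ a := by
      rw [← cint_diff h₁]
      refine integral_congr_ae ?_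
      filter_upwards [e1] with p hp
      rw [hp]
    have f3 : ∫ p, chr a p * φ p ∂(μ₃.restrict fwdConeᶜ) =
        -conj (cint μ₂ ψ₂ (a + b) - cint μ₂ ψ₂ a) := by
      have g1 : ∫ p, chr a p * φ p ∂(μ₃.restrict fwdConeᶜ) =
          ∫ p, chr a p * -(((chr b p) - 1) * conj (ψ₂ (-p))) ∂(μ₃.restrict fwdConeᶜ) := by
        refine integral_congr_ae ?_
        filter_upwards [e3] with p hp
        rw [hp]
      rw [g1, ← integral_indicator mc.compl, hμ₃, integral_map_equiv]
      rw [← cint_diff h₂, ← integral_conj, ← integral_neg]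
      refine integral_congr_ae ?_
      filter_upwards [c₂] with p hp
      by_cases hp' : -p ∈ fwdCone
      · have h0 : p = 0 := mem_cone_inter hp hp'
        have hz : chr b (0 : Mink) = 1 := by simp [chr, mdot]
        simp only [he', Set.indicator, Set.mem_compl_iff, hp', not_true_eq_false, if_false, h0, hz,
          sub_self, zero_mul, mul_zero, map_zero, neg_zero, ite_self]
      · simp only [he', Set.indicator, Set.mem_compl_iff, hp', not_false_eq_true, if_true,
          neg_neg, chr_neg_left, map_mul, map_sub, map_one]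
        ring
    rw [f1, f3, map_sub, ← h, ← h]
    ring
  have key1 : φ =ᵐ[μ₁] 0 := by
    have hac : μ₁ ≪ M := by
      intro s hs
      simp only [hM, Measure.add_apply, add_eq_zero] at hs
      exact hs.1
    exact hac.ae_le key
  have h6 := cint_diff h₁ 0 b
  have h7 : ∫ p, chr 0 p * ((chr b p - 1) * ψ₁ p) ∂μ₁ = 0 := by
    rw [← integral_zero Mink ℂ (μ := μ₁)]
    refine integral_congr_ae ?_
    filter_upwards [e1, key1] with p hp hp'
    rw [← hp, hp']
    simp
  rw [h7, zero_add] at h6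
  exact (sub_eq_zero.1 h6.symm)

open GF (one)

variable {D : Type*} [NormedAddCommGroup D] [InnerProductSpace ℂ D] {Q : GF.Theory D}

/-- matrix elements of the translations with spectrum on both sides are constant -/
lemma two_sided {x y x' y' : D} (h : ∀ a : Mink, inner ℂ x (Q.U 1 one a.ofLp y) =
    conj (inner ℂ x' (Q.U 1 one a.ofLp y'))) (b : Mink) :
    inner ℂ x (Q.U 1 one b.ofLp y) = inner ℂ x (Q.U 1 one (0 : Mink).ofLp y) := by
  obtain ⟨μ₁, ψ₁, c₁, i₁, r₁⟩ := spec_rep Q x y
  obtain ⟨μ₂, ψ₂, c₂, i₂, r₂⟩ := spec_rep Q x' y'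
  rw [r₁, r₁]
  exact cint_const c₁ c₂ i₁ i₂ (fun a => by rw [← r₁, ← r₂, h]) b

end Vale.Agent.P352.H990
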