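import Vale.Agent.P352.H990.Conv
import Vale.Agent.P352.H990.Spec

set_option maxSynthPendingDepth 3

open MeasureTheory SchwartzMap Complex Filter Topology
open scoped SchwartzMap ComplexConjugate ENNReal LineDeriv

namespace Vale.Agent.P352.H990

open GF (Ix V Fn Sch ev pd bar sim one bas o)

variable {D : Type*} [NormedAddCommGroup D] [InnerProductSpace ℂ D] {Q : GF.Theory D}
  {T : Ix → Ix → GF.Fld D} {A : GF.Fld D} {d : ℝ}

/-- repeated commutators as operators -/
noncomputable def nc (hA : PField Q T A d) : List 𝓢(Mink, ℂ) → (D →ₗ[ℂ] D)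
  | [] => LinearMap.id
  | [f] => hA.op f
  | f :: g :: l => hA.op f ∘ₗ nc hA (g :: l) - nc hA (g :: l) ∘ₗ hA.op f

lemma nc_cons (hA : PField Q T A d) (f : 𝓢(Mink, ℂ)) {l : List 𝓢(Mink, ℂ)} (hl : l ≠ []) (v : D) :
    nc hA (f :: l) v = A (fl f) (nc hA l v) - nc hA l (A (fl f) v) := by
  cases l with
  | nil => exact absurd rfl hl
  | cons g l => rfl

lemma com_map (hA : PField Q T A d) (l : List 𝓢(Mink, ℂ)) (v : D) :
    GF.com A (l.map fl) v = nc hA l v := by
  induction l generalizing v with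
  | nil => rfl
  | cons f l ih =>
    cases l with
    | nil => rfl
    | cons g l =>
      rw [nc_cons hA f (by simp)]
      rw [← ih, ← ih]
      rfl

/-- matrix elements of words -/
noncomputable def mel (A : GF.Fld D) (x y : D) : Fu 𝓢(Mink, ℂ) :=
  fun w => inner ℂ x (w.foldr (fun f v => A (fl f) v) y)

lemma sh_mel (hA : PField Q T A d) (f : 𝓢(Mink, ℂ)) (x y : D) :
    sh f (mel A x y) = mel A (A (fl (conjS f)) x) y := by
  funext w
  change inner ℂ x (A (fl f) _) = inner ℂ (A (fl (conjS f)) x) _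
  rw [hA.herm, conjS_conjS]

lemma ne_mel (hA : PField Q T A d) (l : List 𝓢(Mink, ℂ)) (hl : l ≠ []) (x y : D)
    (w : List 𝓢(Mink, ℂ)) :
    ne l (mel A x y) w = inner ℂ x (nc hA l (w.foldr (fun f v => A (fl f) v) y)) := by
  induction l generalizing x y w with
  | nil => exact absurd rfl hl
  | cons f l ih =>
    cases l with
    | nil => rfl
    | cons g l =>
      have ih' := ih (by simp)
      rw [nc_cons hA f (by simp)]
      change ne (g :: l) (sh f (mel A x y)) w - ne (g :: l) (mel A x y) (f :: w) = _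
      rw [sh_mel hA, ih', ih', inner_sub_right, hA.herm, conjS_conjS]
      rfl

/-- sign of the adjoint -/
noncomputable def sg (l : List 𝓢(Mink, ℂ)) : ℂ := (-1) ^ (l.length + 1)

lemma sg_mul (l : List 𝓢(Mink, ℂ)) : sg l * sg l = 1 := by
  unfold sg
  rw [← mul_pow]
  simp

lemma conj_sg (l : List 𝓢(Mink, ℂ)) : conj (sg l) = sg l := by
  unfold sg
  rw [map_pow, map_neg, map_one]

/-- conjugation of all test functions -/
noncomputable abbrev cl (l : List 𝓢(Mink, ℂ)) : List 𝓢(Mink, ℂ) := l.map conjS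

lemma cl_cl (l : List 𝓢(Mink, ℂ)) : cl (cl l) = l := by
  induction l with
  | nil => rfl
  | cons f l ih => simp only [cl, List.map_cons, conjS_conjS] at ih ⊢; rw [ih]

lemma inner_nc (hA : PField Q T A d) (l : List 𝓢(Mink, ℂ)) (hl : l ≠ []) (v w : D) :
    inner ℂ (nc hA l v) w = sg l * inner ℂ v (nc hA (cl l) w) := by
  induction l generalizing v w with
  | nil => exact absurd rfl hl
  | cons f l ih =>
    cases l with
    | nil =>
      change inner ℂ (A (fl f) v) w = sg [f] * inner ℂ v (A (fl (conjS f)) w)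
      rw [hA.herm]
      simp [sg]
    | cons g l =>
      have ih' := ih (by simp)
      rw [nc_cons hA f (by simp)]
      have e : cl (f :: g :: l) = conjS f :: cl (g :: l) := rfl
      rw [e, nc_cons hA (conjS f) (by simp), inner_sub_left, inner_sub_right, hA.herm, ih', ih',
        hA.herm]
      have s : sg (f :: g :: l) = - sg (g :: l) := by
        simp only [sg, List.length_cons, pow_succ]
        ring
      rw [s]
      ring

/-- all test functions have compact support -/
def Cpt (l : List 𝓢(Mink, ℂ)) : Prop := ∀ f ∈ l, HasCompactSupport f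

lemma tsupport_conjS (f : 𝓢(Mink, ℂ)) : tsupport (conjS f) ⊆ tsupport f := by
  refine closure_mono fun z hz => ?_
  simpa only [Function.mem_support, ne_eq, conjS_apply, map_eq_zero] using hz

lemma Cpt.cl {l : List 𝓢(Mink, ℂ)} (h : Cpt l) : Cpt (cl l) := by
  intro f hf
  obtain ⟨g, hg, rfl⟩ := List.mem_map.1 hf
  exact (h g hg).of_isClosed_subset (isClosed_tsupport _) (tsupport_conjS g)

lemma Cpt.tail {f : 𝓢(Mink, ℂ)} {l : List 𝓢(Mink, ℂ)} (h : Cpt (f :: l)) : Cpt l :=
  fun g hg => h g (List.mem_cons_of_mem _ hg)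

/-- common radius -/
def Rad (r : ℝ) (l : List 𝓢(Mink, ℂ)) : Prop := ∀ f ∈ l, ∀ x ∈ tsupport f, ∀ j, |x j| ≤ r

lemma Cpt.exists_rad {l : List 𝓢(Mink, ℂ)} (h : Cpt l) : ∃ r : ℝ, Rad r l := by
  induction l with
  | nil => exact ⟨0, fun f hf => by simp at hf⟩
  | cons f l ih =>
    obtain ⟨r, hr⟩ := ih h.tail
    obtain ⟨s, -, hs⟩ := exists_ball f (h f List.mem_cons_self)
    refine ⟨max r s, fun g hg x hx j => ?_⟩
    rcases List.mem_cons.1 hg with rfl | hg
    · exact (hs x hx j).trans (le_max_right _ _)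
    · exact (hr g hg x hx j).trans (le_max_left _ _)

lemma Rad.cl {r : ℝ} {l : List 𝓢(Mink, ℂ)} (h : Rad r l) : Rad r (cl l) := by
  intro f hf x hx j
  obtain ⟨g, hg, rfl⟩ := List.mem_map.1 hf
  exact h g hg x (tsupport_conjS g hx) j

lemma Rad.tail {r : ℝ} {f : 𝓢(Mink, ℂ)} {l : List 𝓢(Mink, ℂ)} (h : Rad r (f :: l)) : Rad r l :=
  fun g hg => h g (List.mem_cons_of_mem _ hg)

lemma sep_of_rad {r : ℝ} {f g : 𝓢(Mink, ℂ)} (hf : ∀ x ∈ tsupport f, ∀ j, |x j| ≤ r)
    (hg : IsTest (Wd (2 * r + 1)) g) : SpSep f g := by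
  intro x hx y hy
  have e0 := hf x hx 0
  have e1 := hf x hx 1
  have hy' : |y 0| < y 1 - (2 * r + 1) := hg.2 hy
  have h2 : |x 0 - y 0| < |x 1 - y 1| := by
    have h3 := abs_sub (x 0) (y 0)
    have h4 := (abs_le.1 e1).2
    have h5 : y 1 - x 1 ≤ |x 1 - y 1| := by
      rw [abs_sub_comm]; exact le_abs_self _
    linarith
  have h3 := sq_lt_sq.2 h2
  simp only [mdot, PiLp.sub_apply]
  nlinarith only [h3, sq_nonneg (x 2 - y 2), sq_nonneg (x 3 - y 3)]

lemma fld_sub {B : GF.Fld D} (hB : Q.fld B) (f : 𝓢(Mink, ℂ)) (v w : D) :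
    B (fl f) (v - w) = B (fl f) v - B (fl f) w := by
  have h := fld_add hB f v ((-1 : ℂ) • w)
  rw [fld_smul hB, neg_one_smul, neg_one_smul, ← sub_eq_add_neg, ← sub_eq_add_neg] at h
  exact h

lemma nc_far (hA : PField Q T A d) {r : ℝ} (l : List 𝓢(Mink, ℂ)) (hr : Rad r l)
    {B : GF.Fld D} {g : 𝓢(Mink, ℂ)} (hB : Q.fld B) (hg : IsTest (Wd (2 * r + 1)) g) (v : D) :
    nc hA l (B (fl g) v) = B (fl g) (nc hA l v) := by
  induction l generalizing v with
  | nil => rfl
  | cons f l ih =>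
    have h1 := fun v => hA.loc B f g v hB (sep_of_rad (hr f List.mem_cons_self) hg)
    cases l with
    | nil => exact h1 v
    | cons g' l =>
      have ih' := ih hr.tail
      rw [nc_cons hA f (by simp), nc_cons hA f (by simp), ih', h1, h1, ih', fld_sub hB]

/-- Reeh-Schlieder: a repeated commutator that maps the vacuum to a multiple is a scalar -/
lemma scal_of_vac (hA : PField Q T A d) (l : List 𝓢(Mink, ℂ)) (hl : l ≠ []) (hc : Cpt l)
    (c c' : ℂ) (h : nc hA l Q.vac = c • Q.vac) (h' : nc hA (cl l) Q.vac = c' • Q.vac) (v : D) :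
    nc hA l v = c • v := by
  obtain ⟨r, hr⟩ := hc.exists_rad
  have hvv : inner ℂ Q.vac Q.vac = (1 : ℂ) := by
    rw [inner_self_eq_norm_sq_to_K, Q.norm_vac]; simp
  have hcc : conj c = sg l * c' := by
    have := inner_nc hA l hl Q.vac Q.vac
    rw [h, h', inner_smul_left, inner_smul_right, hvv] at this
    simpa using this
  have hkill : ∀ u, PW Q (Wd (2 * r + 1)) u → nc hA (cl l) u = c' • u := by
    intro u hu
    induction hu with
    | vac => exact h'
    | add _ _ h1 h2 => rw [map_add, h1, h2, smul_add]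
    | smul k _ h1 => rw [map_smul, h1, smul_comm]
    | @fld B g v hB hg _ h1 => rw [nc_far hA _ hr.cl hB hg, h1, fld_smul hB]
  rw [← sub_eq_zero]
  apply PW.orth (Q := Q)
  intro w hw
  refine PW.rs (2 * r + 1) (fun u hu => ?_) hw
  rw [inner_sub_left, inner_nc hA l hl, hkill u hu, inner_smul_left, inner_smul_right, hcc]
  ring

/-- all repeated commutators of length `m` are scalars -/
def Sc (hA : PField Q T A d) (m : ℕ) : Prop := ∀ l : List 𝓢(Mink, ℂ), l.length = m → Cpt l →
  ∃ c : ℂ, ∀ v, nc hA l v = c • v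

lemma ne_nil_of_length {m : ℕ} (hm : 1 ≤ m) {l : List 𝓢(Mink, ℂ)} (h : l.length = m) : l ≠ [] := by
  rintro rfl
  simp at h
  omega

lemma sc_of_vac (hA : PField Q T A d) {m : ℕ} (hm : 1 ≤ m)
    (h : ∀ l : List 𝓢(Mink, ℂ), l.length = m → Cpt l → ∃ c : ℂ, nc hA l Q.vac = c • Q.vac) :
    Sc hA m := by
  intro l hl hc
  obtain ⟨c, h1⟩ := h l hl hc
  obtain ⟨c', h2⟩ := h (cl l) (by simpa using hl) hc.cl
  exact ⟨c, fun v => scal_of_vac hA l (ne_nil_of_length hm hl) hc c c' h1 h2 v⟩

lemma sc_of_nilpotent (hA : PField Q T A d) {m : ℕ} (hm : 1 ≤ m) (h : Q.Nilpotent A m) :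
    Sc hA m := by
  refine sc_of_vac hA hm fun l hl hc => ?_
  obtain ⟨c, h1⟩ := h (l.map fl) (by simpa using hl) (by
    intro f hf
    obtain ⟨g, hg, rfl⟩ := List.mem_map.1 hf
    exact ⟨isTest_fl g, hasCompactSupport_fl (hc g hg)⟩)
  exact ⟨c, by rw [← com_map, h1]⟩

lemma vev_map (A : GF.Fld D) (w : List 𝓢(Mink, ℂ)) : Q.vev A (w.map fl) = mel A Q.vac Q.vac w := by
  simp only [GF.Theory.vev, mel, List.foldr_map]

lemma sc_of_order (hA : PField Q T A d) {m : ℕ} (hN : Q.TruncZero A (2 * m)) (hm : 1 ≤ m) :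
    Sc hA m := by
  obtain ⟨t, ht, hz⟩ := hN
  set τ : Fu 𝓢(Mink, ℂ) := fun w => t (w.map fl) with hτ
  set ω : Fu 𝓢(Mink, ℂ) := mel A Q.vac Q.vac with hω
  have hvv : inner ℂ Q.vac Q.vac = (1 : ℂ) := by
    rw [inner_self_eq_norm_sq_to_K, Q.norm_vac]; simp
  have hexp : ∀ f, sh f ω = cv (sh f τ) ω := by
    intro f
    funext w
    have h1 := ht (fl f) (w.map fl) (by
      intro g hg
      rcases List.mem_cons.1 hg with rfl | hg
      · exact isTest_fl f
      · obtain ⟨k, -, rfl⟩ := List.mem_map.1 hg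
        exact isTest_fl k)
    rw [splits_conv fl w (fun u => t (fl f :: u)) (Q.vev A)] at h1
    have h3 : Q.vev A (fl f :: w.map fl) = ω (f :: w) := by
      rw [← List.map_cons, vev_map]
    rw [h3] at h1
    change ω (f :: w) = conv w (sh f τ) ω
    rw [h1]
    congr 1
    funext u
    rw [vev_map]
  have h1 : ω [] = 1 := hvv
  refine sc_of_vac hA hm fun l hl hc => ?_
  have hl' : l ≠ [] := ne_nil_of_length hm hl
  have hcl : cl l ≠ [] := by simpa using hl'
  refine ⟨inner ℂ Q.vac (nc hA l Q.vac), ?_⟩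
  have key := ne_pair hexp (cl l) l hcl hl' h1
  have hv : ne l (ne (cl l) τ) [] = 0 := by
    refine ne_vanish (n := 2 * m) (k := (cl l).length) l (fun w hw => ?_) [] ?_
    · refine ne_vanish (n := 2 * m) (k := 0) (cl l) (fun w hw => ?_) w (by omega)
      refine hz _ (by simpa using hw) fun g hg => ?_
      obtain ⟨k, -, rfl⟩ := List.mem_map.1 hg
      exact isTest_fl k
    · simp only [cl, List.length_map, List.length_nil]
      omega
  have e1 : ne (cl l) ω = mel A (sg (cl l) • nc hA l Q.vac) Q.vac := by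
    funext w
    rw [hω, ne_mel hA _ hcl]
    simp only [mel]
    rw [inner_smul_left, conj_sg, inner_nc hA l hl', ← mul_assoc]
    have : sg (cl l) = sg l := by simp [sg]
    rw [this, sg_mul, one_mul]
  rw [hv, zero_add, e1, ne_mel hA l hl'] at key
  simp only [mel, hω, ne_mel hA l hl', List.foldr_nil, inner_smul_left, conj_sg] at key
  have hs : sg (cl l) = sg l := by simp [sg]
  set v := nc hA l Q.vac with hvdef
  rw [hs] at key
  have key' : inner ℂ v v = inner ℂ v Q.vac * inner ℂ Q.vac v := by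
    have h5 := congrArg (fun z => sg l * z) key
    simp only [← mul_assoc, sg_mul, one_mul] at h5
    exact h5
  rw [← sub_eq_zero]
  apply inner_self_eq_zero (𝕜 := ℂ).1
  rw [inner_sub_left, inner_sub_right, inner_sub_right, inner_smul_left, inner_smul_right,
    inner_smul_left, inner_smul_right, hvv, key']
  have h7 : conj (inner ℂ Q.vac v) = inner ℂ v Q.vac := inner_conj_symm _ _
  rw [h7]
  ring

end Vale.Agent.P352.H990
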